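import Vale.Agent.P022.H687.Perm

/-!
# P12a2: the local index at the finite primes
-/

set_option linter.unusedSectionVars false

namespace Vale.Agent.P022.H687

open NumberField IsDedekindDomain Vale.Agent.P024.M3 Vale.Agent.P022.CFT

section main

variable {K L : Type} [Field K] [NumberField K] [Field L] [NumberField L] [Algebra K L]
  [IsGalois K L] {m : ℕ}

theorem nn_mem_RR {x : Lˣ} (hx : x ∈ RR L m) : nn K L x ∈ RR L m :=
  prod_mem fun g _ => gal_mem_RR g hx

theorem va_nn_congr {σ : L ≃ₐ[K] L} {a b : Lˣ} (h : a / b ∈ (dd σ).range ⊔ RR L m) :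
    nn K L a / nn K L b ∈ RR L m := by
  rw [← map_div]
  obtain ⟨_, ⟨c, rfl⟩, r, hr, hcr⟩ := Subgroup.mem_sup.1 h
  rw [← hcr, map_mul, nn_dd, one_mul]
  exact nn_mem_RR hr

/-- (X1) `H¹` of the permutation module vanishes -/
theorem mem_of_nn_mem (hm : m ≠ 0) {σ : L ≃ₐ[K] L} (hσ : ∀ τ, τ ∈ Subgroup.zpowers σ)
    {a : Lˣ} (ha : nn K L a ∈ RR L m) : a ∈ (dd σ).range ⊔ RR L m := by
  classical
  have := finite_PL (L := L) hm
  have : Finite (Orb K L m) := Quotient.finite _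
  have := Fintype.ofFinite (Orb K L m)
  obtain ⟨e, he⟩ := exists_e (L := L) hm
  obtain ⟨c, hc⟩ := exists_eb hm hσ he a
  have h1 := va_nn_congr hc
  have h2 : nn K L (eb e c) ∈ RR L m := by
    have := div_mem ha h1
    rwa [div_div_cancel] at this
  have h3 : c = 0 := by
    funext ω
    have h4 := va_nn_eb he c ω
    rw [mem_RR_iff_va.1 h2] at h4
    have h5 : ((st ω : ℕ) : ℤ) ≠ 0 := by exact_mod_cast (st_pos ω).ne'
    exact (mul_eq_zero.1 h4.symm).resolve_right h5
  have h6 : eb e c = 1 := by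
    rw [h3]
    unfold eb
    simp
  rwa [h6, div_one] at hc

/-- the reduction of the valuations at the representatives -/
noncomputable def Phi (K L : Type) [Field K] [NumberField K] [Field L] [NumberField L]
    [Algebra K L] [IsGalois K L] (m : ℕ) :
    Lˣ →* ((ω : Orb K L m) → Multiplicative (ZMod (st ω))) where
  toFun x ω := Multiplicative.ofAdd ((va x ω.out : ℤ) : ZMod (st ω))
  map_one' := by
    funext ω
    rw [va_one]
    simp
  map_mul' x y := by
    funext ω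
    rw [va_mul]
    simp

theorem mem_ker_Phi {x : Lˣ} : x ∈ (Phi K L m).ker ↔ ∀ ω : Orb K L m, (st ω : ℤ) ∣ va x ω.out := by
  rw [MonoidHom.mem_ker, funext_iff]
  refine forall_congr' fun ω => ?_
  rw [← ZMod.intCast_zmod_eq_zero_iff_dvd]
  rfl

theorem dd_apply (σ : L ≃ₐ[K] L) (x : Lˣ) : dd σ x = Units.map (σ : L →* L) x / x := rfl

/-- invariance of the valuations of the elements of `P` -/
theorem va_inv_of_mem {σ : L ≃ₐ[K] L} (hσ : ∀ τ, τ ∈ Subgroup.zpowers σ) {a : Lˣ}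
    (ha : a ∈ (RR L m).comap (dd σ)) (g : L ≃ₐ[K] L) (w : PL L m) : va a (g • w) = va a w := by
  have h1 : ∀ w : PL L m, va a (σ⁻¹ • w) = va a w := by
    intro w
    rw [Subgroup.mem_comap, dd_apply, mem_RR_iff_va] at ha
    have h2 := ha w
    rw [va_div, va_map, sub_eq_zero] at h2
    exact h2
  have h2 : ∀ w : PL L m, va a (σ • w) = va a w := by
    intro w
    have := h1 (σ • w)
    rw [inv_smul_smul] at this
    exact this.symm
  obtain ⟨n, rfl⟩ : ∃ n : ℕ, σ ^ n = g := by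
    have := hσ g
    rw [← mem_powers_iff_mem_zpowers] at this
    exact this
  induction n generalizing w with
  | zero => rw [pow_zero, one_smul]
  | succ n ih => rw [pow_succ, mul_smul, ih, h2]

theorem eq_out (w : PL L m) : ∃ g : L ≃ₐ[K] L,
    g • (Quotient.mk'' w : Orb K L m).out = w := by
  have h3 : w ∈ MulAction.orbit (L ≃ₐ[K] L) (Quotient.mk'' w : Orb K L m).out := by
    rw [← MulAction.orbitRel_apply]
    exact Quotient.exact' (Quotient.out_eq' _).symm
  exact h3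

/-- (X2), membership -/
theorem inf_ker_Phi (hm : m ≠ 0) {σ : L ≃ₐ[K] L} (hσ : ∀ τ, τ ∈ Subgroup.zpowers σ) :
    (RR L m).comap (dd σ) ⊓ (Phi K L m).ker = (nn K L).range ⊔ RR L m := by
  classical
  have := finite_PL (L := L) hm
  have : Finite (Orb K L m) := Quotient.finite _
  have := Fintype.ofFinite (Orb K L m)
  obtain ⟨e, he⟩ := exists_e (L := L) hm
  apply le_antisymm
  · intro a ha0
    obtain ⟨ha, ha'⟩ := Subgroup.mem_inf.1 ha0
    rw [mem_ker_Phi] at ha'
    choose c hc using ha'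
    have h1 : nn K L (eb e c) ∈ (RR L m).comap (dd σ) := by
      rw [Subgroup.mem_comap, dd_nn]
      exact one_mem _
    have h2 : a / nn K L (eb e c) ∈ RR L m := by
      rw [mem_RR_iff_va]
      intro w
      obtain ⟨g, hg⟩ := eq_out (K := K) w
      rw [← hg, va_div, va_inv_of_mem hσ ha, va_inv_of_mem hσ h1, va_nn_eb he, hc]
      ring
    rw [← div_mul_cancel a (nn K L (eb e c))]
    exact mul_mem (Subgroup.mem_sup_right h2) (Subgroup.mem_sup_left ⟨_, rfl⟩)
  · refine sup_le ?_ ?_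
    · rintro _ ⟨b, rfl⟩
      refine Subgroup.mem_inf.2 ⟨?_, ?_⟩
      · rw [Subgroup.mem_comap, dd_nn]
        exact one_mem _
      · rw [mem_ker_Phi]
        intro ω
        obtain ⟨c, hc⟩ := exists_eb hm hσ he b
        have h1 := mem_RR_iff_va.1 (va_nn_congr hc) ω.out
        rw [va_div, sub_eq_zero, va_nn_eb he] at h1
        rw [h1]
        exact Dvd.intro_left _ rfl
    · intro a ha
      refine Subgroup.mem_inf.2 ⟨?_, ?_⟩
      · exact dd_stable (fun g x hx => gal_mem_RR g hx) ha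
      · rw [mem_ker_Phi]
        intro ω
        rw [mem_RR_iff_va.1 ha]
        exact dvd_zero _

theorem Phi_apply (x : Lˣ) (ω : Orb K L m) :
    Phi K L m x ω = Multiplicative.ofAdd ((va x ω.out : ℤ) : ZMod (st ω)) := rfl

/-- (X2), surjectivity -/
theorem map_Phi (hm : m ≠ 0) (σ : L ≃ₐ[K] L) :
    ((RR L m).comap (dd σ)).map (Phi K L m) = ⊤ := by
  classical
  have := finite_PL (L := L) hm
  have := Fintype.ofFinite (PL L m)
  obtain ⟨e, he⟩ := exists_e (L := L) hm
  rw [eq_top_iff]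
  intro f _
  choose c hc using fun ω => ZMod.intCast_surjective (Multiplicative.toAdd (f ω))
  have h1 : ∀ w : PL L m, va (∏ w, e w ^ c (Quotient.mk'' w)) w = c (Quotient.mk'' w) := by
    intro w
    rw [va_prod, Finset.sum_eq_single w]
    · rw [va_zpow, he.1, mul_one]
    · intro w' _ hw'
      rw [va_zpow, he.2 _ _ (Ne.symm hw'), mul_zero]
    · intro h; exact absurd (Finset.mem_univ _) h
  obtain ⟨a, ha⟩ : ∃ a : Lˣ, ∀ w : PL L m, va a w = c (Quotient.mk'' w) := ⟨_, h1⟩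
  refine ⟨a, ?_, ?_⟩
  · rw [SetLike.mem_coe, Subgroup.mem_comap, mem_RR_iff_va]
    intro w
    have h2 : (Quotient.mk'' (σ⁻¹ • w) : Orb K L m) = Quotient.mk'' w :=
      Quotient.sound' (MulAction.orbitRel_apply.2 ⟨σ⁻¹, rfl⟩)
    rw [dd_apply, va_div, va_map, ha, ha, h2, sub_self]
  · funext ω
    have h2 : (Quotient.mk'' ω.out : Orb K L m) = ω := Quotient.out_eq' ω
    rw [Phi_apply, ha, h2, hc, ofAdd_toAdd]

theorem dfin_eq [Fintype (Orb K L m)] : dfin K L m = ∏ ω : Orb K L m, st ω := by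
  unfold dfin stabProd
  rw [finprod_eq_prod_of_fintype]
  rfl

/-- (X2) -/
theorem relIndex_eq_dfin (hm : m ≠ 0) {σ : L ≃ₐ[K] L} (hσ : ∀ τ, τ ∈ Subgroup.zpowers σ) :
    ((nn K L).range ⊔ RR L m).relIndex ((RR L m).comap (dd σ)) = dfin K L m := by
  classical
  have := finite_PL (L := L) hm
  have : Finite (Orb K L m) := Quotient.finite _
  have := Fintype.ofFinite (Orb K L m)
  rw [← inf_ker_Phi hm hσ, Subgroup.inf_relIndex_left, Subgroup.relIndex_ker, map_Phi hm,
    dfin_eq]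
  have h1 : Nat.card (⊤ : Subgroup ((ω : Orb K L m) → Multiplicative (ZMod (st ω)))) =
      Nat.card ((ω : Orb K L m) → Multiplicative (ZMod (st ω))) :=
    Nat.card_congr Subgroup.topEquiv.toEquiv
  rw [h1, Nat.card_pi]
  refine Finset.prod_congr rfl fun ω _ => ?_
  exact Nat.card_zmod _

theorem dfin_pos (hm : m ≠ 0) : 0 < dfin K L m := by
  classical
  have := finite_PL (L := L) hm
  have : Finite (Orb K L m) := Quotient.finite _
  have := Fintype.ofFinite (Orb K L m)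
  rw [dfin_eq]
  exact Finset.prod_pos fun ω _ => st_pos ω

end main

/-- **(a2)** the local index at the finite primes -/
theorem propLoc : PropLoc := by
  intro K L _ _ _ _ _ _ σ hσ m hm0
  rcases Nat.lt_or_ge m 2 with h2 | hm
  · -- the trivial case
    have hm1 : m = 1 := by omega
    subst hm1
    have hno : ∀ w : HeightOneSpectrum (𝓞 L), ((1 : ℕ) : 𝓞 L) ∉ w.asIdeal := by
      intro w h
      rw [Nat.cast_one] at h
      exact w.isPrime.ne_top ((Ideal.eq_top_iff_one _).2 h)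
    have hE : IsEmpty (PL L 1) := ⟨fun w => hno w.1 w.2⟩
    have h1 : VS L 1 1 = ⊤ := by
      rw [eq_top_iff]
      intro x _ w hw
      exact absurd hw (hno w)
    have hE' : IsEmpty (Orb K L 1) := ⟨fun ω => hE.false ω.out⟩
    have h3 : dfin K L 1 = 1 := by
      unfold dfin stabProd
      exact finprod_of_isEmpty _
    have h4 : ((VS L 1 1 ⊓ (dd σ).ker) ⊔ (nn K L).range).relIndex (dd σ).ker = 1 := by
      rw [h1, top_inf_eq, Subgroup.relIndex_eq_one]
      exact le_sup_left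
    exact ⟨1, le_refl _, by rw [h4]; exact one_ne_zero, by rw [h3, h4]⟩
  obtain ⟨he, k, hk, hk0, hke⟩ := propD σ hσ m hm
  refine ⟨k, hk, ?_⟩
  set N := (nn K L).range with hN
  set B := RR L m with hB
  set Kx := (dd σ).ker with hKx
  set W := VS L m k ⊓ Kx with hW
  have hm' : m ≠ 0 := by omega
  have hX2 := relIndex_eq_dfin hm' hσ
  have hNK : N ≤ Kx := by
    rintro _ ⟨x, rfl⟩
    exact MonoidHom.mem_ker.2 (dd_nn σ x)
  have hWK : W ≤ Kx := inf_le_right
  have hWB : W ≤ B := by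
    rintro x ⟨hx, -⟩ w hw
    exact (hx w hw).1
  have hBP : B ≤ B.comap (dd σ) := dd_stable fun g x hx => gal_mem_RR g hx
  have hKP : Kx ≤ B.comap (dd σ) := by
    intro x hx
    rw [Subgroup.mem_comap, MonoidHom.mem_ker.1 hx]
    exact one_mem _
  -- (2)
  have e2 : (N ⊔ B).relIndex (Kx ⊔ B) * (Kx ⊔ B).relIndex (B.comap (dd σ)) = dfin K L m := by
    rw [← hX2]
    exact Subgroup.relIndex_mul_relIndex _ _ _ (sup_le_sup_right hNK B) (sup_le hKP hBP)
  -- (3)
  have e3 : (N ⊔ B).relIndex (Kx ⊔ B) = ((N ⊔ B) ⊓ Kx).relIndex Kx := by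
    rw [Subgroup.inf_relIndex_right]
    have : Kx ⊔ B = Kx ⊔ (N ⊔ B) := by rw [← sup_assoc, sup_eq_left.2 hNK]
    rw [this, Subgroup.relIndex_sup_right]
  -- (5)
  have e5 : (N ⊔ B) ⊓ Kx = N ⊔ (B ⊓ Kx) := (sup_inf_assoc_of_le B hNK)
  have e6 : (W ⊔ N).relIndex ((N ⊔ B) ⊓ Kx) = (B.map (nn K L) ⊔ W).relIndex (B ⊓ Kx) := by
    have h1 : (N ⊔ B) ⊓ Kx = (B ⊓ Kx) ⊔ (W ⊔ N) := by
      rw [e5]
      apply le_antisymm
      · exact sup_le (le_sup_right.trans le_sup_right) le_sup_left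
      · exact sup_le le_sup_right (sup_le ((le_inf hWB hWK).trans le_sup_right) le_sup_left)
    rw [h1, Subgroup.relIndex_sup_right]
    have h2 : (W ⊔ N) ⊓ (B ⊓ Kx) = B.map (nn K L) ⊔ W := by
      apply le_antisymm
      · rintro x ⟨hx, hx', -⟩
        obtain ⟨w, hw, _, ⟨a, rfl⟩, rfl⟩ := Subgroup.mem_sup.1 hx
        have h3 : nn K L a ∈ B := by
          have h4 : nn K L a = (w * nn K L a) / w := by rw [mul_div_cancel_left]
          rw [h4]
          exact div_mem hx' (hWB hw)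
        obtain ⟨_, ⟨b, rfl⟩, r, hr, hbr⟩ := Subgroup.mem_sup.1 (mem_of_nn_mem hm' hσ h3)
        rw [mul_comm]
        refine Subgroup.mul_mem_sup ⟨r, hr, ?_⟩ hw
        rw [← hbr, map_mul, nn_dd, one_mul]
      · refine sup_le ?_ (le_inf le_sup_left (le_inf hWB hWK))
        rintro _ ⟨x, hx, rfl⟩
        exact ⟨Subgroup.mem_sup_right ⟨x, rfl⟩, nn_mem_RR hx, hNK ⟨x, rfl⟩⟩
    rw [← h2, Subgroup.inf_relIndex_right]
  have e7 : (W ⊔ N).relIndex ((N ⊔ B) ⊓ Kx) * ((N ⊔ B) ⊓ Kx).relIndex Kx =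
      (W ⊔ N).relIndex Kx := by
    refine Subgroup.relIndex_mul_relIndex _ _ _ (le_inf ?_ (sup_le hWK hNK)) inf_le_right
    exact sup_le (hWB.trans le_sup_right) le_sup_left
  have he1 : e1 (dd σ) B = (Kx ⊔ B).relIndex (B.comap (dd σ)) := rfl
  rw [← e7, e6, ← e3]
  have hd := dfin_pos (K := K) (L := L) hm'
  rw [← e2] at hd
  have h8 : (N ⊔ B).relIndex (Kx ⊔ B) ≠ 0 := fun h => by
    rw [h, zero_mul] at hd
    exact lt_irrefl _ hd
  refine ⟨mul_ne_zero hk0 h8, ?_⟩
  rw [← e2, mul_comm, ← he1]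
  exact Nat.mul_le_mul_right _ hke

end Vale.Agent.P022.H687
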