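import Vale.Agent.P022.H687.Sem

/-!
# The normal lattice in the semilocal ring
-/

set_option linter.unusedSectionVars false
set_option linter.unnecessarySimpa false

namespace Vale.Agent.P022.H687

open NumberField IsDedekindDomain

section

variable {F L : Type*} [Field F] [NumberField F] [Field L] [NumberField L] [Algebra F L]
  [IsGalois F L] (p : ℕ) (β : L)

/-- the lattice spanned by the conjugates of `β` over the semilocal ring of `F` -/
def ML : AddSubgroup L where
  carrier := {x | ∃ a : (L ≃ₐ[F] L) → F, (∀ g, algebraMap F L (a g) ∈ Rs L p) ∧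
    x = ∑ g, algebraMap F L (a g) * g β}
  zero_mem' := ⟨0, fun g => by simpa using (Rs L p).zero_mem, by simp⟩
  add_mem' := by
    rintro _ _ ⟨a, ha, rfl⟩ ⟨b, hb, rfl⟩
    refine ⟨a + b, fun g => ?_, ?_⟩
    · rw [Pi.add_apply, map_add]
      exact (Rs L p).add_mem (ha g) (hb g)
    · rw [← Finset.sum_add_distrib]
      refine Finset.sum_congr rfl fun g _ => ?_
      rw [Pi.add_apply, map_add, add_mul]
  neg_mem' := by
    rintro _ ⟨a, ha, rfl⟩
    refine ⟨-a, fun g => ?_, ?_⟩
    · rw [Pi.neg_apply, map_neg]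
      exact (Rs L p).neg_mem (ha g)
    · rw [← Finset.sum_neg_distrib]
      refine Finset.sum_congr rfl fun g _ => ?_
      rw [Pi.neg_apply, map_neg, neg_mul]

variable {p β}

theorem smul_mem_ML {f : F} (hf : algebraMap F L f ∈ Rs L p) {x : L} (hx : x ∈ ML (F := F) p β) :
    algebraMap F L f * x ∈ ML (F := F) p β := by
  obtain ⟨a, ha, rfl⟩ := hx
  refine ⟨fun g => f * a g, fun g => ?_, ?_⟩
  · rw [map_mul]
    exact (Rs L p).mul_mem hf (ha g)
  · rw [Finset.mul_sum]
    refine Finset.sum_congr rfl fun g _ => ?_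
    rw [map_mul, mul_assoc]

theorem conj_mem_ML (h : L ≃ₐ[F] L) : h β ∈ ML (F := F) p β := by
  classical
  refine ⟨Pi.single h 1, fun g => ?_, ?_⟩
  · by_cases hg : g = h
    · subst hg
      rw [Pi.single_eq_same, map_one]
      exact (Rs L p).one_mem
    · rw [Pi.single_eq_of_ne hg, map_zero]
      exact (Rs L p).zero_mem
  · rw [Finset.sum_eq_single h]
    · rw [Pi.single_eq_same, map_one, one_mul]
    · intro g _ hg
      rw [Pi.single_eq_of_ne hg, map_zero, zero_mul]
    · intro hh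
      exact absurd (Finset.mem_univ h) hh

theorem pow_mul_mem_ML (k : ℕ) {x : L} (hx : x ∈ ML (F := F) p β) :
    (p : L) ^ k * x ∈ ML (F := F) p β := by
  have h := smul_mem_ML (F := F) (f := (p : F) ^ k) (p := p) (x := x) (β := β) (by
    rw [map_pow, map_natCast]
    exact pow_mem_Rs k) hx
  rwa [map_pow, map_natCast] at h

theorem gal_mem_ML (h : L ≃ₐ[F] L) {x : L} (hx : x ∈ ML (F := F) p β) :
    h x ∈ ML (F := F) p β := by
  obtain ⟨a, ha, rfl⟩ := hx
  rw [map_sum]
  refine sum_mem fun g _ => ?_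
  rw [map_mul, AlgEquiv.commutes]
  exact smul_mem_ML (ha g) (conj_mem_ML (h * g))

theorem ML_le (hβ : β ∈ Rs L p) {x : L} (hx : x ∈ ML (F := F) p β) :
    x ∈ Rs L p := by
  obtain ⟨a, ha, rfl⟩ := hx
  exact sum_mem fun g _ => (Rs L p).mul_mem (ha g) (gal_mem_Rs g hβ)

/-- the trace -/
noncomputable def tr (F : Type*) {L : Type*} [Field F] [Field L] [Algebra F L]
    [Fintype (L ≃ₐ[F] L)] (x : L) : L := ∑ g : L ≃ₐ[F] L, g x

omit [NumberField F] [NumberField L] [IsGalois F L] in
variable [Fintype (L ≃ₐ[F] L)] in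
theorem tr_conj (h : L ≃ₐ[F] L) (x : L) : tr F (h x) = tr F x := by
  unfold tr
  exact Fintype.sum_equiv (Equiv.mulRight h) _ _ fun g => rfl

omit [NumberField F] [NumberField L] in
variable [Fintype (L ≃ₐ[F] L)] in
theorem tr_add (x y : L) : tr F (x + y) = tr F x + tr F y := by
  unfold tr
  rw [← Finset.sum_add_distrib]
  exact Finset.sum_congr rfl fun g _ => map_add _ _ _

omit [NumberField F] [NumberField L] in
variable [Fintype (L ≃ₐ[F] L)] in
theorem tr_sub (x y : L) : tr F (x - y) = tr F x - tr F y := by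
  unfold tr
  rw [← Finset.sum_sub_distrib]
  exact Finset.sum_congr rfl fun g _ => map_sub _ _ _

omit [NumberField F] [NumberField L] in
variable [Fintype (L ≃ₐ[F] L)] in
theorem tr_smul (f : F) (x : L) : tr F (algebraMap F L f * x) = algebraMap F L f * tr F x := by
  unfold tr
  rw [Finset.mul_sum]
  refine Finset.sum_congr rfl fun g _ => ?_
  rw [map_mul, AlgEquiv.commutes]

theorem tr_eq (x : L) : tr F x = algebraMap F L (Algebra.trace F L x) := by
  rw [trace_eq_sum_automorphisms]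
  rfl

theorem tr_mem_Rs {x : L} (hx : x ∈ Rs L p) : tr F x ∈ Rs L p :=
  sum_mem fun g _ => gal_mem_Rs g hx

/-- **`H¹` of the normal lattice vanishes** -/
theorem exists_of_tr_zero {σ : L ≃ₐ[F] L} (hσ : ∀ τ, τ ∈ Subgroup.zpowers σ)
    (ht : tr F β ≠ 0) {x : L} (hx : x ∈ ML (F := F) p β) (h0 : tr F x = 0) :
    ∃ y ∈ ML (F := F) p β, x = σ y - y := by
  obtain ⟨a, ha, rfl⟩ := hx
  -- the sum of the coefficients
  have h1 : tr F (∑ g, algebraMap F L (a g) * g β) = (∑ g, algebraMap F L (a g)) * tr F β := by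
    have h2 : tr F (∑ g, algebraMap F L (a g) * g β) =
        ∑ g, tr F (algebraMap F L (a g) * g β) := by
      unfold tr
      rw [Finset.sum_comm]
      refine Finset.sum_congr rfl fun g _ => ?_
      rw [map_sum]
    rw [h2, Finset.sum_mul]
    refine Finset.sum_congr rfl fun g _ => ?_
    rw [tr_smul, tr_conj]
  rw [h1] at h0
  have h3 : ∑ g, algebraMap F L (a g) = 0 := (mul_eq_zero.1 h0).resolve_right ht
  -- powers of `σ`
  have h4 : ∀ g : L ≃ₐ[F] L, ∃ z ∈ ML (F := F) p β, g β - β = σ z - z := by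
    intro g
    obtain ⟨n, rfl⟩ : ∃ n : ℕ, σ ^ n = g := by
      have := hσ g
      rw [← mem_powers_iff_mem_zpowers] at this
      exact this
    induction n with
    | zero => exact ⟨0, zero_mem _, by simp⟩
    | succ n ih =>
      obtain ⟨z, hz, h⟩ := ih
      refine ⟨z + (σ ^ n) β, add_mem hz (conj_mem_ML _), ?_⟩
      rw [map_add, pow_succ', AlgEquiv.mul_apply]
      linear_combination h
  choose z hz h5 using h4
  refine ⟨∑ g, algebraMap F L (a g) * z g, sum_mem fun g _ => smul_mem_ML (ha g) (hz g), ?_⟩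
  have h6 : ∑ g, algebraMap F L (a g) * g β = ∑ g, algebraMap F L (a g) * (g β - β) := by
    simp only [mul_sub]
    rw [Finset.sum_sub_distrib, ← Finset.sum_mul, h3, zero_mul, sub_zero]
  rw [h6, map_sum, ← Finset.sum_sub_distrib]
  refine Finset.sum_congr rfl fun g _ => ?_
  rw [h5, map_mul, AlgEquiv.commutes, mul_sub]

/-- elements with given trace -/
theorem exists_tr (ht : tr F β ≠ 0) : ∃ e : ℕ, ∀ r ∈ Rs L p,
    (∃ f : F, algebraMap F L f = r) → ∃ m ∈ ML (F := F) p β, tr F m = (p : L) ^ e * r := by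
  obtain ⟨e, he⟩ := exists_pow_mul_mem (L := L) (tr F β)⁻¹
  refine ⟨e, ?_⟩
  rintro _ hr ⟨f, rfl⟩
  set t := Algebra.trace F L β with htt
  have h1 : algebraMap F L t = tr F β := (tr_eq β).symm
  refine ⟨algebraMap F L (f * ((p : F) ^ e * t⁻¹)) * β, smul_mem_ML ?_ ?_, ?_⟩
  · rw [map_mul, map_mul, map_pow, map_natCast, map_inv₀, h1]
    exact (Rs L p).mul_mem hr he
  · exact conj_mem_ML (F := F) (p := p) (β := β) 1
  · rw [tr_smul, map_mul, map_mul, map_pow, map_natCast, map_inv₀, h1]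
    field_simp

/-- the lattice is large -/
theorem exists_pow_mem_ML (hb : ∀ x : L, ∃ a : (L ≃ₐ[F] L) → F,
    x = ∑ g, algebraMap F L (a g) * g β) : ∃ c : ℕ, ∀ x ∈ Rs L p,
    (p : L) ^ c * x ∈ ML (F := F) p β := by
  classical
  -- one element
  have h1 : ∀ x : L, ∃ c : ℕ, ∀ c' ≥ c, (p : L) ^ c' * x ∈ ML (F := F) p β := by
    intro x
    obtain ⟨a, rfl⟩ := hb x
    choose s hs using fun g => exists_pow_mul_mem (L := L) (algebraMap F L (a g))
    refine ⟨∑ g, s g, fun c' hc' => ?_⟩
    rw [Finset.mul_sum]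
    refine sum_mem fun g _ => ?_
    have h2 : s g ≤ c' := (Finset.single_le_sum (fun _ _ => Nat.zero_le _)
      (Finset.mem_univ g)).trans hc'
    obtain ⟨t, rfl⟩ := Nat.exists_eq_add_of_le h2
    have h3 : (p : L) ^ (s g + t) * (algebraMap F L (a g) * g β) =
        algebraMap F L ((p : F) ^ t * ((p : F) ^ s g * a g)) * g β := by
      rw [map_mul, map_mul, map_pow, map_pow, map_natCast]
      ring
    rw [h3]
    refine smul_mem_ML ?_ (conj_mem_ML g)
    rw [map_mul, map_mul, map_pow, map_pow, map_natCast]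
    exact (Rs L p).mul_mem (pow_mem_Rs t) (hs g)
  -- generators of the ring of integers
  obtain ⟨S, hS⟩ := (inferInstance : Module.Finite ℤ (𝓞 L)).fg_top
  choose c hc using fun x : 𝓞 L => h1 (x : L)
  refine ⟨∑ x ∈ S, c x, ?_⟩
  have h2 : ∀ x : 𝓞 L, (p : L) ^ (∑ x ∈ S, c x) * (x : L) ∈ ML (F := F) p β := by
    intro x
    have hx : x ∈ Submodule.span ℤ (S : Set (𝓞 L)) := by rw [hS]; trivial
    induction hx using Submodule.span_induction with
    | mem x hx =>
      exact hc x _ (Finset.single_le_sum (f := c) (fun _ _ => Nat.zero_le _) hx)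
    | zero => simpa using zero_mem _
    | add x y _ _ hx hy =>
      push_cast
      rw [mul_add]
      exact add_mem hx hy
    | smul n x _ hx =>
      have : ((n • x : 𝓞 L) : L) = n • (x : L) := by simp
      rw [this, mul_smul_comm]
      exact zsmul_mem hx n
  intro x hx
  obtain ⟨n, ⟨hn', hn⟩, hnx⟩ := (mem_Rs_iff x).1 hx
  have hn0 : (n : L) ≠ 0 := by
    rw [Nat.cast_ne_zero]
    exact hn'
  have h3 := smul_mem_ML (F := F) (f := ((n : F))⁻¹) (p := p) (β := β) (by
    rw [map_inv₀, map_natCast]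
    exact natCast_inv_mem_Rs hn) (h2 ⟨_, hnx⟩)
  rw [map_inv₀, map_natCast] at h3
  convert h3 using 1
  change _ = (n : L)⁻¹ * ((p : L) ^ (∑ x ∈ S, c x) * ((n : L) * x))
  field_simp

end

end Vale.Agent.P022.H687
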