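import Vale.Agent.P022.H687.PropD
import Vale.Agent.P022.H116.Spec

/-!
# The permutation module of the primes above `m`
-/

set_option linter.unusedSectionVars false

namespace Vale.Agent.P022.H687

open NumberField IsDedekindDomain Vale.Agent.P024.M3 Vale.Agent.P022.CFT
open Vale.Agent.P024.H903 (gp gp_mul gp_one val_gp vh vh_eq_one)

section crt

variable {L : Type} [Field L] [NumberField L] {m : ℕ}

theorem finite_PL (hm : m ≠ 0) : Finite (PL L m) := by
  have h1 : (Ideal.span {(m : 𝓞 L)} : Ideal (𝓞 L)) ≠ 0 := by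
    rw [Ne, Ideal.zero_eq_bot, Ideal.span_singleton_eq_bot]
    exact_mod_cast hm
  have h2 := Ideal.finite_factors h1
  refine (h2.subset ?_).to_subtype
  intro w hw
  exact Ideal.dvd_span_singleton.2 hw

/-- independence of the valuations above `m` -/
theorem exists_unif (hm : m ≠ 0) (w : PL L m) : ∃ x : Lˣ, vh w.1 x = Multiplicative.ofAdd 1 ∧
    ∀ w' : PL L m, w' ≠ w → vh w'.1 x = 1 := by
  classical
  have := finite_PL (L := L) hm
  have := Fintype.ofFinite (PL L m)
  obtain ⟨π, hπ⟩ := w.1.intValuation_exists_uniformizer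
  obtain ⟨y, hy⟩ := IsDedekindDomain.exists_forall_sub_mem_ideal (s := (Finset.univ : Finset (PL L m)))
    (fun w' => w'.1.asIdeal) (fun _ => 2) (fun w' _ => w'.1.prime) (fun w' _ w'' _ h h' => h
      (Subtype.ext (HeightOneSpectrum.ext h'))) (fun w' => if w'.1 = w then π else 1)
  have hyw : y - π ∈ w.1.asIdeal ^ 2 := by simpa using hy w (Finset.mem_univ _)
  have h1 : w.1.intValuation (y - π) ≤ WithZero.exp (-(2 : ℕ) : ℤ) :=
    (HeightOneSpectrum.intValuation_le_pow_iff_mem _ _ _).2 hyw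
  have h2 : w.1.intValuation y = WithZero.exp (-1 : ℤ) := by
    have h3 : y = π + (y - π) := by ring
    have h4 : w.1.intValuation (y - π) < w.1.intValuation π := by
      rw [hπ]
      exact lt_of_le_of_lt h1 (WithZero.exp_lt_exp.2 (by norm_num))
    rw [h3, Valuation.map_add_eq_of_lt_left _ h4, hπ]
  have hy0 : y ≠ 0 := by
    rintro rfl
    rw [map_zero] at h2
    exact WithZero.exp_ne_zero h2.symm
  have hy0' : algebraMap (𝓞 L) L y ≠ 0 := by
    rwa [Ne, FaithfulSMul.algebraMap_eq_zero_iff]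
  refine ⟨(Units.mk0 _ hy0')⁻¹, ?_, ?_⟩
  · rw [map_inv]
    change (Multiplicative.ofAdd (WithZero.log (w.1.valuation L (algebraMap (𝓞 L) L y))))⁻¹ = _
    rw [HeightOneSpectrum.valuation_of_algebraMap, h2, WithZero.log_exp]
    rfl
  · intro w' hw'
    rw [map_inv, inv_eq_one, vh_eq_one]
    change w'.1.valuation L (algebraMap (𝓞 L) L y) = 1
    rw [HeightOneSpectrum.valuation_eq_one_iff_notMem]
    intro h5
    have h6 : y - 1 ∈ w'.1.asIdeal ^ 2 := by
      have := hy w' (Finset.mem_univ _)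
      simpa [hw'] using this
    have h7 : y - 1 ∈ w'.1.asIdeal := Ideal.pow_le_self two_ne_zero h6
    apply w'.1.isPrime.ne_top
    rw [Ideal.eq_top_iff_one]
    have h8 : (1 : 𝓞 L) = y - (y - 1) := by ring
    rw [h8]
    exact sub_mem h5 h7

end crt

section perm

variable {K L : Type} [Field K] [NumberField K] [Field L] [NumberField L] [Algebra K L]
  [IsGalois K L] {m : ℕ}

theorem vh_smul (g : L ≃ₐ[K] L) (w : PL L m) (x : Lˣ) :
    vh (g • w).1 (Units.map (g : L →* L) x) = vh w.1 x := by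
  change Multiplicative.ofAdd (WithZero.log ((gp g w.1).valuation L (g (x : L)))) = _
  rw [val_gp]
  rfl

theorem vh_map (g : L ≃ₐ[K] L) (w : PL L m) (x : Lˣ) :
    vh w.1 (Units.map (g : L →* L) x) = vh (g⁻¹ • w).1 x := by
  have h := vh_smul g (g⁻¹ • w) x
  rwa [smul_inv_smul] at h

theorem mem_RR_iff_vh {x : Lˣ} : x ∈ RR L m ↔ ∀ w : PL L m, vh w.1 x = 1 :=
  ⟨fun h w => (vh_eq_one _ _).2 (h w.1 w.2), fun h w hw => (vh_eq_one _ _).1 (h ⟨w, hw⟩)⟩

/-- the orbits -/
abbrev Orb (K L : Type) [Field K] [NumberField K] [Field L] [NumberField L] [Algebra K L]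
    (m : ℕ) : Type := MulAction.orbitRel.Quotient (L ≃ₐ[K] L) (PL L m)

/-- the order of the stabilizer of the representative -/
noncomputable def st (ω : Orb K L m) : ℕ :=
  Nat.card (MulAction.stabilizer (L ≃ₐ[K] L) ω.out)

theorem st_pos (ω : Orb K L m) : 0 < st ω := Nat.card_pos

theorem nn_apply (x : Lˣ) : nn K L x = ∏ τ : L ≃ₐ[K] L, Units.map (τ : L →* L) x := rfl

theorem mem_ker_dd {σ : L ≃ₐ[K] L} (hσ : ∀ τ, τ ∈ Subgroup.zpowers σ) {x : Lˣ}
    (hx : x ∈ (dd σ).ker) (g : L ≃ₐ[K] L) : Units.map (g : L →* L) x = x := by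
  have h1 : Units.map (σ : L →* L) x = x := by
    have h2 : Units.map (σ : L →* L) x / x = 1 := MonoidHom.mem_ker.1 hx
    rwa [div_eq_one] at h2
  obtain ⟨n, rfl⟩ : ∃ n : ℕ, σ ^ n = g := by
    have := hσ g
    rw [← mem_powers_iff_mem_zpowers] at this
    exact this
  induction n with
  | zero => ext; rfl
  | succ n ih =>
    have h3 : Units.map ((σ ^ (n + 1) : L ≃ₐ[K] L) : L →* L) x =
        Units.map ((σ ^ n : L ≃ₐ[K] L) : L →* L) (Units.map (σ : L →* L) x) := by
      rw [pow_succ]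
      ext
      rfl
    rw [h3, h1, ih]

/-- `g x / x` lies in the image of `σ - 1`. -/
theorem div_mem_range {σ : L ≃ₐ[K] L} (hσ : ∀ τ, τ ∈ Subgroup.zpowers σ) (x : Lˣ)
    (g : L ≃ₐ[K] L) : Units.map (g : L →* L) x / x ∈ (dd σ).range := by
  obtain ⟨n, rfl⟩ : ∃ n : ℕ, σ ^ n = g := by
    have := hσ g
    rw [← mem_powers_iff_mem_zpowers] at this
    exact this
  induction n with
  | zero =>
    have : Units.map ((σ ^ 0 : L ≃ₐ[K] L) : L →* L) x = x := by ext; rfl
    rw [this, div_self']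
    exact one_mem _
  | succ n ih =>
    have h3 : Units.map ((σ ^ (n + 1) : L ≃ₐ[K] L) : L →* L) x =
        Units.map (σ : L →* L) (Units.map ((σ ^ n : L ≃ₐ[K] L) : L →* L) x) := by
      rw [pow_succ']
      ext
      rfl
    have h4 : Units.map ((σ ^ (n + 1) : L ≃ₐ[K] L) : L →* L) x / x =
        (Units.map (σ : L →* L) (Units.map ((σ ^ n : L ≃ₐ[K] L) : L →* L) x) /
          Units.map ((σ ^ n : L ≃ₐ[K] L) : L →* L) x) *
        (Units.map ((σ ^ n : L ≃ₐ[K] L) : L →* L) x / x) := by
      rw [h3, div_mul_div_cancel]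
    rw [h4]
    exact mul_mem ⟨_, rfl⟩ ih

end perm

section main

variable {K L : Type} [Field K] [NumberField K] [Field L] [NumberField L] [Algebra K L]
  [IsGalois K L] {m : ℕ}

/-- the valuations, additively -/
noncomputable def va (x : Lˣ) (w : PL L m) : ℤ := Multiplicative.toAdd (vh w.1 x)

theorem va_mul (x y : Lˣ) (w : PL L m) : va (x * y) w = va x w + va y w := by
  unfold va; rw [map_mul, toAdd_mul]

theorem va_inv (x : Lˣ) (w : PL L m) : va x⁻¹ w = - va x w := by
  unfold va; rw [map_inv, toAdd_inv]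

theorem va_div (x y : Lˣ) (w : PL L m) : va (x / y) w = va x w - va y w := by
  unfold va; rw [map_div, toAdd_div]

theorem va_one (w : PL L m) : va 1 w = 0 := by
  unfold va; rw [map_one, toAdd_one]

theorem va_zpow (x : Lˣ) (n : ℤ) (w : PL L m) : va (x ^ n) w = n * va x w := by
  unfold va; rw [map_zpow, toAdd_zpow, smul_eq_mul]

theorem va_prod {ι : Type*} (s : Finset ι) (f : ι → Lˣ) (w : PL L m) :
    va (∏ i ∈ s, f i) w = ∑ i ∈ s, va (f i) w := by
  unfold va; rw [map_prod, toAdd_prod]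

theorem va_map (g : L ≃ₐ[K] L) (w : PL L m) (x : Lˣ) :
    va (Units.map (g : L →* L) x) w = va x (g⁻¹ • w) := by
  unfold va; rw [vh_map]

theorem va_smul (g : L ≃ₐ[K] L) (w : PL L m) (x : Lˣ) :
    va (Units.map (g : L →* L) x) (g • w) = va x w := by
  unfold va; rw [vh_smul]

theorem mem_RR_iff_va {x : Lˣ} : x ∈ RR L m ↔ ∀ w : PL L m, va x w = 0 := by
  rw [mem_RR_iff_vh]
  exact forall_congr' fun w => ⟨fun h => by unfold va; rw [h, toAdd_one],
    fun h => Multiplicative.toAdd.injective (by rw [toAdd_one]; exact h)⟩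

/-- elements with one nontrivial valuation -/
def IsRep (e : PL L m → Lˣ) : Prop :=
  (∀ w, va (e w) w = 1) ∧ ∀ w w' : PL L m, w' ≠ w → va (e w) w' = 0

open Classical in
theorem IsRep.eq {e : PL L m → Lˣ} (he : IsRep e) (w w' : PL L m) :
    va (e w) w' = if w' = w then 1 else 0 := by
  by_cases h : w' = w
  · subst h
    rw [if_pos rfl, he.1]
  · rw [if_neg h, he.2 _ _ h]

theorem exists_e (hm : m ≠ 0) : ∃ e : PL L m → Lˣ, IsRep e := by
  choose e he he' using fun w : PL L m => exists_unif hm w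
  refine ⟨e, fun w => ?_, fun w w' h => ?_⟩
  · unfold va; rw [he]; rfl
  · unfold va; rw [he' _ _ h]; rfl

theorem zpow_sum' {G ι : Type*} [CommGroup G] (x : G) (s : Finset ι) (f : ι → ℤ) :
    x ^ (∑ i ∈ s, f i) = ∏ i ∈ s, x ^ f i := by
  classical
  induction s using Finset.induction_on with
  | empty => simp
  | insert i s hi ih => rw [Finset.sum_insert hi, Finset.prod_insert hi, zpow_add, ih]

variable [Fintype (Orb K L m)]

/-- the product of the representatives -/
noncomputable def eb (e : PL L m → Lˣ) (c : Orb K L m → ℤ) : Lˣ := ∏ ω, e ω.out ^ c ω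

theorem va_nn_eb {e : PL L m → Lˣ} (he : IsRep e)
    (c : Orb K L m → ℤ) (ω : Orb K L m) : va (nn K L (eb e c)) ω.out = c ω * st ω := by
  classical
  have h1 : ∀ w, va (eb e c) w = if w = (Quotient.mk'' w : Orb K L m).out then
      c (Quotient.mk'' w) else 0 := by
    intro w
    unfold eb
    rw [va_prod]
    have h2 : ∀ ω : Orb K L m, va (e ω.out ^ c ω) w = if w = ω.out then c ω else 0 := by
      intro ω
      rw [va_zpow, he.eq]
      split_ifs <;> simp
    rw [Finset.sum_congr rfl fun ω _ => h2 ω]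
    split_ifs with h
    · rw [Finset.sum_eq_single (Quotient.mk'' w : Orb K L m)]
      · rw [if_pos h]
      · intro ω _ hω
        rw [if_neg]
        intro h3
        apply hω
        rw [h3]
        exact (Quotient.out_eq' ω).symm
      · intro h3
        exact absurd (Finset.mem_univ _) h3
    · refine Finset.sum_eq_zero fun ω _ => ?_
      rw [if_neg]
      intro h3
      apply h
      have h4 : (Quotient.mk'' w : Orb K L m) = ω := by rw [h3]; exact Quotient.out_eq' ω
      rw [h4, ← h3]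
  rw [nn_apply, va_prod]
  have h3 : ∀ g : L ≃ₐ[K] L, va (Units.map (g : L →* L) (eb e c)) ω.out =
      if g⁻¹ • ω.out = ω.out then c ω else 0 := by
    intro g
    rw [va_map, h1]
    have h4 : (Quotient.mk'' (g⁻¹ • ω.out) : Orb K L m) = ω := by
      have h5 : (Quotient.mk'' (g⁻¹ • ω.out) : Orb K L m) = Quotient.mk'' ω.out :=
        Quotient.sound' (MulAction.orbitRel_apply.2 ⟨g⁻¹, rfl⟩)
      rw [h5]
      exact Quotient.out_eq' ω
    rw [h4]
  rw [Finset.sum_congr rfl fun g _ => h3 g, ← Finset.sum_filter, Finset.sum_const, nsmul_eq_mul,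
    mul_comm]
  congr 1
  norm_cast
  unfold st
  rw [Nat.card_eq_fintype_card, Fintype.card_subtype]
  refine Finset.card_bij (fun g _ => g⁻¹) ?_ ?_ ?_
  · intro g hg
    rw [Finset.mem_filter] at hg ⊢
    exact ⟨Finset.mem_univ _, hg.2⟩
  · intro g _ g' _ h
    exact inv_injective h
  · intro g hg
    refine ⟨g⁻¹, ?_, inv_inv g⟩
    rw [Finset.mem_filter] at hg ⊢
    refine ⟨Finset.mem_univ _, ?_⟩
    rw [inv_inv]
    exact hg.2

/-- every element is a product of representatives modulo `(σ - 1) Lˣ` and units -/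
theorem exists_eb (hm : m ≠ 0) {σ : L ≃ₐ[K] L} (hσ : ∀ τ, τ ∈ Subgroup.zpowers σ)
    {e : PL L m → Lˣ} (he : IsRep e)
    (a : Lˣ) : ∃ c : Orb K L m → ℤ, a / eb e c ∈ (dd σ).range ⊔ RR L m := by
  classical
  have := finite_PL (L := L) hm
  have := Fintype.ofFinite (PL L m)
  set H : Subgroup Lˣ := (dd σ).range ⊔ RR L m with hH
  -- `a` is a product of the `e w`
  have h1 : a / ∏ w, e w ^ va a w ∈ RR L m := by
    rw [mem_RR_iff_va]
    intro w
    rw [va_div, va_prod, Finset.sum_eq_single w]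
    · rw [va_zpow, he.1, mul_one, sub_self]
    · intro w' _ hw'
      rw [va_zpow, he.2 _ _ (Ne.symm hw'), mul_zero]
    · intro h; exact absurd (Finset.mem_univ _) h
  have h2 : ∀ w : PL L m, e w / e (Quotient.mk'' w : Orb K L m).out ∈ H := by
    intro w
    have h3 : w ∈ MulAction.orbit (L ≃ₐ[K] L) (Quotient.mk'' w : Orb K L m).out := by
      rw [← MulAction.orbitRel_apply]
      exact Quotient.exact' (Quotient.out_eq' _).symm
    obtain ⟨g, hg⟩ := h3
    have hg' : g • (Quotient.mk'' w : Orb K L m).out = w := hg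
    have h4 := div_mem_range hσ (e (Quotient.mk'' w : Orb K L m).out) g
    have h5 : e w / Units.map (g : L →* L) (e (Quotient.mk'' w : Orb K L m).out) ∈ RR L m := by
      rw [mem_RR_iff_va]
      intro w'
      have h6 : g⁻¹ • w' = (Quotient.mk'' w : Orb K L m).out ↔ w' = w := by
        rw [inv_smul_eq_iff, hg']
      rw [va_div, va_map, he.eq, he.eq]
      simp only [h6, sub_self]
    rw [← div_mul_div_cancel _ (Units.map (g : L →* L) (e (Quotient.mk'' w : Orb K L m).out))]
    exact mul_mem (Subgroup.mem_sup_right h5) (Subgroup.mem_sup_left h4)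
  refine ⟨fun ω => ∑ w with (Quotient.mk'' w : Orb K L m) = ω, va a w, ?_⟩
  have h7 : eb e (fun ω => ∑ w with (Quotient.mk'' w : Orb K L m) = ω, va a w) =
      ∏ w, e (Quotient.mk'' w : Orb K L m).out ^ va a w := by
    unfold eb
    rw [← Finset.prod_fiberwise (Finset.univ : Finset (PL L m))
      (fun w => (Quotient.mk'' w : Orb K L m))]
    refine Finset.prod_congr rfl fun ω _ => ?_
    rw [zpow_sum']
    refine Finset.prod_congr rfl fun w hw => ?_
    rw [(Finset.mem_filter.1 hw).2]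
  rw [h7, ← div_mul_div_cancel _ (∏ w, e w ^ va a w)]
  refine mul_mem (Subgroup.mem_sup_right h1) ?_
  rw [← Finset.prod_div_distrib]
  refine prod_mem fun w _ => ?_
  rw [← div_zpow]
  exact zpow_mem (h2 w) _

end main

end Vale.Agent.P022.H687
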