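import Vale.Agent.P024.M3.Defs

/-!
# The semilocal ring at `p`
-/

namespace Vale.Agent.P022.H687

open NumberField IsDedekindDomain

section

variable (L : Type*) [Field L] [NumberField L] (p : ℕ)

/-- the elements of `L` which are integral at all primes above `p` -/
def Rs : Subring L where
  carrier := {x | ∀ w : HeightOneSpectrum (𝓞 L), (p : 𝓞 L) ∈ w.asIdeal → w.valuation L x ≤ 1}
  one_mem' := by intro w _; simp
  zero_mem' := by intro w _; simp
  mul_mem' := by
    intro x y hx hy w hw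
    rw [map_mul]
    exact mul_le_one' (hx w hw) (hy w hw)
  add_mem' := by
    intro x y hx hy w hw
    exact (Valuation.map_add _ _ _).trans (max_le (hx w hw) (hy w hw))
  neg_mem' := by
    intro x hx w hw
    rw [Valuation.map_neg]
    exact hx w hw

variable {L} {p}

theorem val_nat_le (w : HeightOneSpectrum (𝓞 L)) (n : ℕ) : w.valuation L (n : L) ≤ 1 := by
  have := w.valuation_le_one (K := L) (n : 𝓞 L)
  simpa using this

/-- a natural number prime to `p` is a unit at the primes above `p` -/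
theorem val_nat_eq {w : HeightOneSpectrum (𝓞 L)} (hw : (p : 𝓞 L) ∈ w.asIdeal)
    {n : ℕ} (hc : Nat.Coprime p n) : w.valuation L (n : L) = 1 := by
  have h1 : ((n : 𝓞 L)) ∉ w.asIdeal := by
    intro h
    have h2 := (Nat.isCoprime_iff_coprime.2 hc)
    obtain ⟨a, b, hab⟩ := h2
    apply w.isPrime.ne_top
    rw [Ideal.eq_top_iff_one]
    have h3 : (1 : 𝓞 L) = (a : 𝓞 L) * (p : 𝓞 L) + (b : 𝓞 L) * (n : 𝓞 L) := by
      have := congrArg (fun z : ℤ => (z : 𝓞 L)) hab
      push_cast at this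
      exact this.symm
    rw [h3]
    exact Ideal.add_mem _ (Ideal.mul_mem_left _ _ hw) (Ideal.mul_mem_left _ _ h)
  have h2 := (w.valuation_eq_one_iff_notMem (K := L)).2 h1
  simpa using h2

/-- a power of `p` is a unit at the primes not above `p` -/
theorem val_p_eq {w : HeightOneSpectrum (𝓞 L)} (hw : (p : 𝓞 L) ∉ w.asIdeal) (s : ℕ) :
    w.valuation L ((p : L) ^ s) = 1 := by
  have h2 := (w.valuation_eq_one_iff_notMem (K := L)).2 hw
  have h3 : w.valuation L (p : L) = 1 := by simpa using h2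
  rw [map_pow, h3, one_pow]

theorem exists_int_mul (x : L) : ∃ n : ℕ, n ≠ 0 ∧ IsIntegral ℤ ((n : L) * x) := by
  have hx : IsAlgebraic ℤ x := (IsFractionRing.isAlgebraic_iff ℤ ℚ L).2 (IsAlgebraic.of_finite ℚ x)
  obtain ⟨y, hy0, hy⟩ := hx.exists_integral_multiple
  refine ⟨y.natAbs, Int.natAbs_ne_zero.2 hy0, ?_⟩
  rw [zsmul_eq_mul] at hy
  rcases Int.natAbs_eq y with h | h
  · have : ((y.natAbs : ℕ) : L) = (y : L) := by
      rw [← Int.cast_natCast, ← h]
    rw [this]
    exact hy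
  · have : ((y.natAbs : ℕ) : L) = -(y : L) := by
      rw [← Int.cast_natCast, ← Int.cast_neg]
      congr 1
      omega
    rw [this, neg_mul]
    exact hy.neg

/-- the part of `n` at `p` -/
theorem exists_split {p : ℕ} {n : ℕ} (hn : n ≠ 0) :
    ∃ (s a m : ℕ), a ∣ p ^ s ∧ Nat.Coprime p m ∧ n = a * m := by
  induction n using Nat.strong_induction_on with
  | _ n ih =>
    by_cases hg : Nat.gcd p n = 1
    · exact ⟨0, 1, n, by simp, hg, by simp⟩
    · have hd : Nat.gcd p n ∣ n := Nat.gcd_dvd_right p n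
      obtain ⟨k, hk⟩ := hd
      have hk0 : k ≠ 0 := by rintro rfl; exact hn (by rw [hk, mul_zero])
      have hg0 : Nat.gcd p n ≠ 0 := by
        intro h0
        exact hn (by rw [hk, h0, zero_mul])
      have hlt : k < n := by
        have h2 : 2 ≤ Nat.gcd p n := by omega
        calc k < 2 * k := by omega
          _ ≤ Nat.gcd p n * k := Nat.mul_le_mul_right _ h2
          _ = n := hk.symm
      obtain ⟨s, a, m, ha, hm, hkm⟩ := ih k hlt hk0
      refine ⟨s + 1, Nat.gcd p n * a, m, ?_, hm, ?_⟩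
      · rw [pow_succ, mul_comm]
        exact Nat.mul_dvd_mul ha (Nat.gcd_dvd_left p n)
      · rw [mul_assoc, ← hkm]
        exact hk

theorem val_dvd_eq {w : HeightOneSpectrum (𝓞 L)} (hw : (p : 𝓞 L) ∉ w.asIdeal) {s a : ℕ}
    (ha : a ∣ p ^ s) : w.valuation L (a : L) = 1 := by
  obtain ⟨b, hb⟩ := ha
  have h1 := val_p_eq (L := L) hw s
  have h2 : (p : L) ^ s = (a : L) * (b : L) := by
    have := congrArg (Nat.cast : ℕ → L) hb
    push_cast at this
    exact this
  rw [h2, map_mul] at h1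
  refine le_antisymm (val_nat_le w a) ?_
  calc (1 : WithZero (Multiplicative ℤ)) = w.valuation L (a : L) * w.valuation L (b : L) := h1.symm
    _ ≤ w.valuation L (a : L) * 1 := mul_le_mul_right (val_nat_le w b) _
    _ = _ := mul_one _

/-- characterization of the semilocal ring by denominators -/
theorem mem_Rs_iff (x : L) :
    x ∈ Rs L p ↔ ∃ n : ℕ, (n ≠ 0 ∧ Nat.Coprime p n) ∧ IsIntegral ℤ ((n : L) * x) := by
  constructor
  · intro hx
    obtain ⟨n, hn, hnx⟩ := exists_int_mul x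
    obtain ⟨s, a, m, ha, hm, rfl⟩ := exists_split (p := p) hn
    refine ⟨m, ⟨fun h => hn (by rw [h, mul_zero]), hm⟩, ?_⟩
    have h1 : ∀ w : HeightOneSpectrum (𝓞 L), w.valuation L ((m : L) * x) ≤ 1 := by
      intro w
      by_cases hw : (p : 𝓞 L) ∈ w.asIdeal
      · rw [map_mul]
        exact mul_le_one' (val_nat_le w m) (hx w hw)
      · have h2 : w.valuation L (((a * m : ℕ) : L) * x) ≤ 1 := by
          have := w.valuation_le_one (K := L) (⟨_, hnx⟩ : 𝓞 L)
          exact this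
        push_cast at h2
        rw [mul_assoc, map_mul, val_dvd_eq hw ha, one_mul] at h2
        exact h2
    obtain ⟨y, hy⟩ := HeightOneSpectrum.mem_integers_of_valuation_le_one (R := 𝓞 L) L _ h1
    rw [← hy]
    exact y.2
  · rintro ⟨n, ⟨-, hn⟩, hnx⟩ w hw
    have h2 : w.valuation L ((n : L) * x) ≤ 1 := w.valuation_le_one (K := L) (⟨_, hnx⟩ : 𝓞 L)
    rwa [map_mul, val_nat_eq hw hn, one_mul] at h2

theorem exists_pow_mul_mem (x : L) : ∃ s : ℕ, (p : L) ^ s * x ∈ Rs L p := by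
  obtain ⟨n, hn, hnx⟩ := exists_int_mul x
  obtain ⟨s, a, m, ⟨b, hb⟩, hm, rfl⟩ := exists_split (p := p) hn
  refine ⟨s, (mem_Rs_iff _).2 ⟨m, ⟨fun h => hn (by rw [h, mul_zero]), hm⟩, ?_⟩⟩
  have h2 : (p : L) ^ s = (a : L) * (b : L) := by
    have := congrArg (Nat.cast : ℕ → L) hb
    push_cast at this
    exact this
  have h3 : (m : L) * ((p : L) ^ s * x) = (b : L) * (((a * m : ℕ) : L) * x) := by
    rw [h2]
    push_cast
    ring
  rw [h3]
  have h4 : IsIntegral ℤ (b : L) := by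
    simpa using (isIntegral_algebraMap (R := ℤ) (A := L) (x := (b : ℤ)))
  exact h4.mul hnx

theorem natCast_mem_Rs (n : ℕ) : (n : L) ∈ Rs L p := fun w _ => val_nat_le w n

theorem natCast_inv_mem_Rs {n : ℕ} (hn : Nat.Coprime p n) : ((n : L))⁻¹ ∈ Rs L p := by
  intro w hw
  rw [map_inv₀, val_nat_eq hw hn, inv_one]

theorem pow_mem_Rs (k : ℕ) : (p : L) ^ k ∈ Rs L p := pow_mem (natCast_mem_Rs p) k

/-- there is a prime above `p` -/
theorem exists_above (hp : 2 ≤ p) : ∃ w : HeightOneSpectrum (𝓞 L), (p : 𝓞 L) ∈ w.asIdeal := by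
  have h1 : ¬ IsUnit (p : 𝓞 L) := by
    intro h
    have h2 : IsUnit (Algebra.norm ℤ (p : 𝓞 L)) := h.map _
    have h3 : Algebra.norm ℤ (p : 𝓞 L) = (p : ℤ) ^ Module.finrank ℤ (𝓞 L) := by
      have := Algebra.norm_algebraMap (S := 𝓞 L) (p : ℤ)
      simpa using this
    rw [h3] at h2
    have h4 : Module.finrank ℤ (𝓞 L) ≠ 0 := by
      rw [RingOfIntegers.rank]
      exact Module.finrank_pos.ne'
    have h5 : IsUnit (p : ℤ) := (isUnit_pow_iff h4).1 h2
    rw [Int.isUnit_iff] at h5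
    omega
  obtain ⟨M, hM, hpM⟩ := exists_max_ideal_of_mem_nonunits h1
  have hM0 : M ≠ ⊥ := by
    rintro rfl
    rw [Ideal.mem_bot] at hpM
    have : (p : 𝓞 L) ≠ 0 := by exact_mod_cast (by omega : p ≠ 0)
    exact this hpM
  exact ⟨⟨M, hM.isPrime, hM0⟩, hpM⟩

theorem val_p_lt {w : HeightOneSpectrum (𝓞 L)} (hw : (p : 𝓞 L) ∈ w.asIdeal) :
    w.valuation L (p : L) < 1 := by
  have := (w.valuation_lt_one_iff_mem (K := L) (p : 𝓞 L)).2 hw
  simpa using this

/-- `1 + p x` is a unit of the semilocal ring -/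
theorem unit_of_one_add (hp : 2 ≤ p) {k : ℕ} (hk : 1 ≤ k) {r : L} (hr : r ∈ Rs L p) :
    1 + (p : L) ^ k * r ≠ 0 ∧ (1 + (p : L) ^ k * r)⁻¹ ∈ Rs L p ∧
      ∀ w : HeightOneSpectrum (𝓞 L), (p : 𝓞 L) ∈ w.asIdeal →
        w.valuation L (1 + (p : L) ^ k * r) = 1 := by
  have h1 : ∀ w : HeightOneSpectrum (𝓞 L), (p : 𝓞 L) ∈ w.asIdeal →
      w.valuation L (1 + (p : L) ^ k * r) = 1 := by
    intro w hw
    have h2 : w.valuation L ((p : L) ^ k * r) < 1 := by
      rw [map_mul, map_pow]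
      refine mul_lt_one_of_lt_of_le ?_ (hr w hw)
      exact pow_lt_one₀ zero_le (val_p_lt hw) (by omega)
    have h3 := Valuation.map_one_add_of_lt (v := w.valuation L) h2
    exact h3
  refine ⟨?_, ?_, h1⟩
  · intro h0
    obtain ⟨w, hw⟩ := exists_above (L := L) hp
    have := h1 w hw
    rw [h0, map_zero] at this
    exact zero_ne_one this
  · intro w hw
    rw [map_inv₀, h1 w hw, inv_one]

section

variable {F : Type*} [Field F] [Algebra F L]

theorem gal_mem_Rs (g : L ≃ₐ[F] L) {x : L} (hx : x ∈ Rs L p) : g x ∈ Rs L p := by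
  obtain ⟨n, hn, h⟩ := (mem_Rs_iff x).1 hx
  refine (mem_Rs_iff _).2 ⟨n, hn, ?_⟩
  have h2 : ((n : L) * g x) = g ((n : L) * x) := by rw [map_mul, map_natCast]
  rw [h2]
  exact h.map g

end

end

end Vale.Agent.P022.H687
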